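import Vale.Agent.N039.Main

/-! Barnette graphs: Hamiltonian cycles with three prescribed edges. -/

namespace Vale.Agent.Results.P039.A0Laceable

open Vale.Agent.P039 Vale.Agent.N039

/-- Let `G` be a finite cubic bipartite 3-vertex-connected graph which can be drawn in the plane.
Then `G` has a spherical rotation system, and for each such system `R`:
let the darts `a₁`, `a₂` have the same tail `x`, let `d₁`, `d₂` be darts of the faces of `a₁`,
`a₂` whose tails are at even distance, and let `xu` be an edge different from the edges of `d₁`,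
`d₂`; then some Hamiltonian cycle contains the edges of `d₁` and `d₂` and does not contain `xu`. -/
theorem result {V : Type} [Fintype V] [DecidableEq V] (G : SimpleGraph V)
    (cubic : ∀ v, (G.neighborSet v).ncard = 3) (bipartite : G.IsBipartite)
    (connected : P039Z.ThreeConnected G)
    (planar : P039Z.DrawnIn (EuclideanSpace ℝ (Fin 2)) G) :
    (∃ R : Rotation G, R.Spherical) ∧ ∀ R : Rotation G, R.Spherical →
      ∀ (a₁ a₂ d₁ d₂ : G.Dart) (u : V), a₁.fst = a₂.fst → G.Adj a₁.fst u →
        R.facePerm.SameCycle a₁ d₁ → R.facePerm.SameCycle a₂ d₂ →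
        Even (G.dist d₁.fst d₂.fst) → s(a₁.fst, u) ≠ d₁.edge → s(a₁.fst, u) ≠ d₂.edge →
        ∃ (v : V) (p : G.Walk v v), p.IsHamiltonianCycle ∧ d₁.edge ∈ p.edges ∧
          d₂.edge ∈ p.edges ∧ s(a₁.fst, u) ∉ p.edges :=
  have hG : IsBarnette G := barnette_of cubic bipartite connected planar
  ⟨hG.planar, fun R hR => three_edges hG R hR⟩

end Vale.Agent.Results.P039.A0Laceable
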